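import Vale.Agent.H7.CK.F2

/-!
# P322: the pointwise bound (b1)
-/

open Real Set

namespace CK

/-- slope parameter -/
noncomputable def Nu (w : ℝ) : ℝ := sinh w ^ 2 / log (2 * cosh w)

noncomputable def Vv (w : ℝ) : ℝ := w * (1 - Nu w) + sinh (2 * w) / 2

theorem log_two_cosh_pos (w : ℝ) : 0 < log (2 * cosh w) := by
  refine Real.log_pos ?_
  have := one_le_cosh w
  linarith

theorem half_lt_log_two_cosh (w : ℝ) : 1 / 2 < log (2 * cosh w) := by
  have h1 : log 2 ≤ log (2 * cosh w) := by
    refine Real.log_le_log (by norm_num) ?_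
    have := one_le_cosh w
    linarith
  have := Real.log_two_gt_d9
  linarith

theorem log_two_cosh_hasDerivAt (w : ℝ) :
    HasDerivAt (fun w => log (2 * cosh w)) (sinh w / cosh w) w := by
  have h1 := ((hasDerivAt_cosh w).const_mul 2).log (by have := cosh_pos w; positivity)
  refine h1.congr_deriv ?_
  have := (cosh_pos w).ne'
  field_simp

theorem Nu_nonneg (w : ℝ) : 0 ≤ Nu w := div_nonneg (sq_nonneg _) (log_two_cosh_pos w).le

theorem Nu_pos {w : ℝ} (h : 0 < w) : 0 < Nu w :=
  div_pos (pow_pos (sinh_pos_iff.2 h) 2) (log_two_cosh_pos w)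

theorem Nu_mono {a b : ℝ} (ha : 0 ≤ a) (hab : a ≤ b) : Nu a ≤ Nu b := by
  have hd : ∀ w, HasDerivAt Nu ((2 * sinh w * cosh w * log (2 * cosh w)
      - sinh w ^ 2 * (sinh w / cosh w)) / log (2 * cosh w) ^ 2) w := by
    intro w
    have h1 := ((hasDerivAt_sinh w).pow 2).div (log_two_cosh_hasDerivAt w)
      (log_two_cosh_pos w).ne'
    refine h1.congr_deriv ?_
    simp only [Nat.cast_ofNat, Nat.add_one_sub_one, pow_one, Pi.pow_apply]
  have hmon : MonotoneOn Nu (Ici 0) := by
    refine monotoneOn_of_deriv_nonneg (convex_Ici 0) ?_ ?_ ?_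
    · exact fun x _ => (hd x).continuousAt.continuousWithinAt
    · exact fun x _ => (hd x).differentiableAt.differentiableWithinAt
    · intro x hx
      rw [interior_Ici] at hx
      rw [(hd x).deriv]
      refine div_nonneg ?_ (sq_nonneg _)
      have hs : 0 < sinh x := sinh_pos_iff.2 hx
      have hc := cosh_pos x
      have hl := half_lt_log_two_cosh x
      have e : 2 * sinh x * cosh x * log (2 * cosh x) - sinh x ^ 2 * (sinh x / cosh x)
          = sinh x / cosh x * (2 * cosh x ^ 2 * log (2 * cosh x) - sinh x ^ 2) := by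
        field_simp
      rw [e]
      refine mul_nonneg (by positivity) ?_
      have h3 : cosh x ^ 2 = sinh x ^ 2 + 1 := cosh_sq x
      nlinarith [sq_nonneg (sinh x)]
  exact hmon ha (ha.trans hab) hab

/-! ### the function `y(d) = eta d / tanh d` -/

noncomputable def yy (d : ℝ) : ℝ := log (2 * cosh d) * (cosh d / sinh d) - d

theorem yy_eq {d : ℝ} (hd : 0 < d) : yy d * sinh d = eta d * cosh d := by
  have hs : sinh d ≠ 0 := (sinh_pos_iff.2 hd).ne'
  have hc : cosh d ≠ 0 := (cosh_pos d).ne'
  unfold yy eta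
  rw [tanh_eq_sinh_div_cosh]
  field_simp

theorem yy_hasDerivAt {d : ℝ} (hd : 0 < d) : HasDerivAt yy (-(1 / Nu d)) d := by
  have hs : sinh d ≠ 0 := (sinh_pos_iff.2 hd).ne'
  have hc : cosh d ≠ 0 := (cosh_pos d).ne'
  have hl := (log_two_cosh_pos d).ne'
  have h1 := ((log_two_cosh_hasDerivAt d).mul ((hasDerivAt_cosh d).div (hasDerivAt_sinh d) hs)).sub
    (hasDerivAt_id d)
  refine h1.congr_deriv ?_
  unfold Nu
  have h3 : cosh d ^ 2 = sinh d ^ 2 + 1 := cosh_sq d
  simp only [Pi.div_apply]
  generalize log (2 * cosh d) = l at *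
  field_simp
  linear_combination (-l) * h3

/-- one-variable optimisation -/
theorem opt_line {w d : ℝ} (hw : 0 < w) (hd : 0 < d) :
    w + Nu w * yy w ≤ d + Nu w * yy d := by
  have hD : ∀ x, 0 < x → HasDerivAt (fun x => x + Nu w * yy x) (1 - Nu w / Nu x) x := by
    intro x hx
    have h1 := (hasDerivAt_id x).add ((yy_hasDerivAt hx).const_mul (Nu w))
    refine h1.congr_deriv ?_
    ring
  rcases le_total w d with h | h
  · have hmon : MonotoneOn (fun x => x + Nu w * yy x) (Icc w d) := by
      refine monotoneOn_of_deriv_nonneg (convex_Icc w d) ?_ ?_ ?_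
      · exact fun x hx => (hD x (hw.trans_le hx.1)).continuousAt.continuousWithinAt
      · intro x hx
        rw [interior_Icc] at hx
        exact (hD x (hw.trans hx.1)).differentiableAt.differentiableWithinAt
      · intro x hx
        rw [interior_Icc] at hx
        rw [(hD x (hw.trans hx.1)).deriv]
        have := Nu_mono hw.le hx.1.le
        have h0 := Nu_pos (hw.trans hx.1)
        rw [sub_nonneg, div_le_one h0]
        exact this
    exact hmon (left_mem_Icc.2 h) (right_mem_Icc.2 h) h
  · have hmon : AntitoneOn (fun x => x + Nu w * yy x) (Icc d w) := by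
      refine antitoneOn_of_deriv_nonpos (convex_Icc d w) ?_ ?_ ?_
      · exact fun x hx => (hD x (hd.trans_le hx.1)).continuousAt.continuousWithinAt
      · intro x hx
        rw [interior_Icc] at hx
        exact (hD x (hd.trans hx.1)).differentiableAt.differentiableWithinAt
      · intro x hx
        rw [interior_Icc] at hx
        rw [(hD x (hd.trans hx.1)).deriv]
        have := Nu_mono (hd.trans hx.1).le hx.2.le
        have h0 := Nu_pos (hd.trans hx.1)
        rw [sub_nonpos, one_le_div h0]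
        exact this
    exact hmon (left_mem_Icc.2 h) (right_mem_Icc.2 h) h

/-! ### the minimum over `p` -/

theorem key_p {p : ℝ} (hp : 0 ≤ p) : p * cosh (2 * p) ≤ sinh (2 * p) * log (2 * cosh p) := by
  have h1 : log (2 * cosh p) = p + log (1 + exp (-(2 * p))) := by
    have : 2 * cosh p = exp p * (1 + exp (-(2 * p))) := by
      rw [cosh_eq, mul_add, mul_one, ← exp_add]
      have : p + -(2 * p) = -p := by ring
      rw [this]; ring
    rw [this, Real.log_mul (exp_pos p).ne' (by positivity), Real.log_exp]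
  set y := exp (-(2 * p)) with hy
  have hy0 : 0 < y := exp_pos _
  have hyinv : exp (2 * p) = 1 / y := by
    rw [hy, Real.exp_neg]; simp
  have hlog : y / (1 + y) ≤ log (1 + y) := by
    have := Real.one_sub_inv_le_log_of_pos (x := 1 + y) (by linarith)
    have e : y / (1 + y) = 1 - (1 + y)⁻¹ := by field_simp; ring
    rw [e]; exact this
  have hs : sinh (2 * p) = (1 / y - y) / 2 := by
    rw [sinh_eq, hyinv]
  have hc : cosh (2 * p) = (1 / y + y) / 2 := by
    rw [cosh_eq, hyinv]
  have hs0 : 0 ≤ sinh (2 * p) := sinh_nonneg_iff.2 (by linarith)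
  have h2 : sinh (2 * p) * (p + y / (1 + y)) ≤ sinh (2 * p) * log (2 * cosh p) := by
    rw [h1]
    exact mul_le_mul_of_nonneg_left (by linarith) hs0
  refine le_trans ?_ h2
  rw [hs, hc]
  have h3 : 2 * p + 1 ≤ 1 / y := by
    rw [← hyinv]; exact Real.add_one_le_exp (2 * p)
  have h4 : (2 * p + 1) * y ≤ 1 := by
    rwa [le_div_iff₀ hy0] at h3
  have e : (1 / y - y) / 2 * (p + y / (1 + y)) - p * ((1 / y + y) / 2)
      = (1 - (2 * p + 1) * y) / 2 := by
    field_simp
    ring
  linarith

noncomputable def GG0 (d p : ℝ) : ℝ :=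
  (cosh (2 * p) + cosh (2 * d)) / 2 * log (2 * (cosh (2 * p) + cosh (2 * d)))
    - p * sinh (2 * p) - d * sinh (2 * d)

theorem GG0_hasDerivAt (d p : ℝ) : HasDerivAt (GG0 d)
    (sinh (2 * p) * log (2 * (cosh (2 * p) + cosh (2 * d))) - 2 * p * cosh (2 * p)) p := by
  have hX : 0 < cosh (2 * p) + cosh (2 * d) := add_pos (cosh_pos _) (cosh_pos _)
  have h2p : HasDerivAt (fun p : ℝ => 2 * p) 2 p := by
    simpa using (hasDerivAt_id p).const_mul 2
  have hc : HasDerivAt (fun p => cosh (2 * p)) (sinh (2 * p) * 2) p := h2p.cosh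
  have hs : HasDerivAt (fun p => sinh (2 * p)) (cosh (2 * p) * 2) p := h2p.sinh
  have hX' := hc.add_const (cosh (2 * d))
  have h1 := (((hX'.div_const 2).mul ((hX'.const_mul 2).log (by positivity))).sub
    ((hasDerivAt_id p).mul hs)).sub_const (d * sinh (2 * d))
  refine h1.congr_deriv ?_
  have := hX.ne'
  simp only [id]
  field_simp
  ring

theorem GG0_mono {d p : ℝ} (hp : 0 ≤ p) : GG0 d 0 ≤ GG0 d p := by
  have hmon : MonotoneOn (GG0 d) (Ici 0) := by
    refine monotoneOn_of_deriv_nonneg (convex_Ici 0) ?_ ?_ ?_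
    · exact fun x _ => (GG0_hasDerivAt d x).continuousAt.continuousWithinAt
    · exact fun x _ => (GG0_hasDerivAt d x).differentiableAt.differentiableWithinAt
    · intro x hx
      rw [interior_Ici] at hx
      have hx : 0 < x := hx
      rw [(GG0_hasDerivAt d x).deriv]
      have h1 := key_p hx.le
      have h2 : 2 * log (2 * cosh x) ≤ log (2 * (cosh (2 * x) + cosh (2 * d))) := by
        have e : 2 * log (2 * cosh x) = log ((2 * cosh x) ^ 2) := by
          rw [Real.log_pow]; norm_num
        rw [e]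
        refine Real.log_le_log (by have := cosh_pos x; positivity) ?_
        have h3 := one_le_cosh (2 * d)
        have h4 : cosh (2 * x) = 2 * cosh x ^ 2 - 1 := by
          rw [cosh_two_mul]
          have := cosh_sq x
          linarith
        rw [h4]
        nlinarith
      have hs0 : 0 ≤ sinh (2 * x) := sinh_nonneg_iff.2 (by linarith)
      have h5 := mul_le_mul_of_nonneg_left h2 hs0
      linarith
  exact hmon self_mem_Ici hp hp

theorem eta_neg (w : ℝ) : eta (-w) = eta w := by
  unfold eta; rw [cosh_neg, tanh_neg]; ring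

theorem GG0_eq (d p : ℝ) :
    (eta (p + d) + eta (p - d)) * (cosh (p + d) * cosh (p - d)) = GG0 d p := by
  have hu := cosh_pos (p + d)
  have hv := cosh_pos (p - d)
  have e1 : cosh (2 * p) = cosh (p + d) * cosh (p - d) + sinh (p + d) * sinh (p - d) := by
    rw [← cosh_add]; congr 1; ring
  have e2 : cosh (2 * d) = cosh (p + d) * cosh (p - d) - sinh (p + d) * sinh (p - d) := by
    rw [← cosh_sub]; congr 1; ring
  have e3 : sinh (2 * p) = sinh (p + d) * cosh (p - d) + cosh (p + d) * sinh (p - d) := by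
    rw [← sinh_add]; congr 1; ring
  have e4 : sinh (2 * d) = sinh (p + d) * cosh (p - d) - cosh (p + d) * sinh (p - d) := by
    rw [← sinh_sub]; congr 1; ring
  have e5 : log (2 * (cosh (2 * p) + cosh (2 * d))) = log (2 * cosh (p + d))
      + log (2 * cosh (p - d)) := by
    rw [← Real.log_mul (by positivity) (by positivity)]
    congr 1
    rw [e1, e2]; ring
  unfold GG0 eta
  rw [e5, e1, e2, e3, e4, tanh_eq_sinh_div_cosh, tanh_eq_sinh_div_cosh]
  have h1 := hu.ne'
  have h2 := hv.ne'
  generalize log (2 * cosh (p + d)) = l1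
  generalize log (2 * cosh (p - d)) = l2
  field_simp
  ring

theorem GG0_even (d p : ℝ) : GG0 d (-p) = GG0 d p := by
  unfold GG0
  have e : 2 * -p = -(2 * p) := by ring
  rw [e, cosh_neg, sinh_neg]; ring

theorem eta_core (d p : ℝ) : 2 * eta d * cosh d ^ 2 ≤
    (eta (p + d) + eta (p - d)) * (cosh (p + d) * cosh (p - d)) := by
  have h0 := GG0_eq d 0
  rw [zero_add, zero_sub, eta_neg, cosh_neg] at h0
  rw [GG0_eq]
  have h1 : GG0 d 0 ≤ GG0 d p := by
    rcases le_total 0 p with h | h
    · exact GG0_mono h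
    · rw [← GG0_even d p]; exact GG0_mono (by linarith)
  rw [← h0] at h1
  linarith

/-- `D * y(d) ≤ H~` -/
theorem D_yy_le {s t : ℝ} (hs : s ∈ Ioo (-1 : ℝ) 1) (ht : t ∈ Ioo (-1 : ℝ) 1) (hst : t < s) :
    0 < (A s - A t) / 2 ∧ (s - t) / 2 * yy ((A s - A t) / 2) ≤ (H s + H t) / 2 := by
  have es := exists_tanh hs
  have et := exists_tanh ht
  have hAlt : A t < A s := by
    by_contra hcon
    push Not at hcon
    have : tanh (A s) ≤ tanh (A t) := by
      rw [tanh_eq_sinh_div_cosh, tanh_eq_sinh_div_cosh, div_le_div_iff₀ (cosh_pos _) (cosh_pos _)]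
      have h1 : sinh (A s - A t) ≤ 0 := sinh_nonpos_iff.2 (by linarith)
      rw [sinh_sub] at h1
      linarith
    rw [es, et] at this
    linarith
  set d := (A s - A t) / 2 with hd
  have hd0 : 0 < d := by rw [hd]; linarith
  refine ⟨hd0, ?_⟩
  set p := (A s + A t) / 2 with hp
  have hu : A s = p + d := by rw [hp, hd]; ring
  have hv : A t = p - d := by rw [hp, hd]; ring
  have hsu : s = tanh (p + d) := by rw [← hu, es]
  have htv : t = tanh (p - d) := by rw [← hv, et]
  have hcore := eta_core d p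
  have hcu := cosh_pos (p + d)
  have hcv := cosh_pos (p - d)
  have hy := yy_eq hd0
  have hdiff : (s - t) * (cosh (p + d) * cosh (p - d)) = 2 * sinh d * cosh d := by
    rw [hsu, htv, tanh_eq_sinh_div_cosh, tanh_eq_sinh_div_cosh]
    have e4 : sinh (2 * d) = sinh (p + d) * cosh (p - d) - cosh (p + d) * sinh (p - d) := by
      rw [← sinh_sub]; congr 1; ring
    rw [← sinh_two_mul, e4]
    field_simp
  rw [hsu, htv, H_tanh, H_tanh]
  have hC : 0 < cosh (p + d) * cosh (p - d) := mul_pos hcu hcv
  refine le_of_mul_le_mul_right ?_ hC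
  rw [← hsu, ← htv]
  have e : (s - t) / 2 * yy d * (cosh (p + d) * cosh (p - d)) = eta d * cosh d ^ 2 := by
    have : (s - t) / 2 * yy d * (cosh (p + d) * cosh (p - d))
        = ((s - t) * (cosh (p + d) * cosh (p - d))) * yy d / 2 := by ring
    rw [this, hdiff]
    have : 2 * sinh d * cosh d * yy d / 2 = (yy d * sinh d) * cosh d := by ring
    rw [this, hy]; ring
  rw [e]
  linarith

theorem Vv_eq {w : ℝ} (hw : 0 < w) : Vv w = w + Nu w * yy w := by
  have hs : sinh w ≠ 0 := (sinh_pos_iff.2 hw).ne'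
  have hl := (log_two_cosh_pos w).ne'
  unfold Vv yy Nu
  rw [sinh_two_mul]
  generalize log (2 * cosh w) = l at *
  field_simp
  ring

theorem Nu_zero : Nu 0 = 0 := by simp [Nu]

theorem Vv_zero : Vv 0 = 0 := by simp [Vv]

/-- **(b1)** -/
theorem b1 {s t w : ℝ} (hs : s ∈ Ioo (-1 : ℝ) 1) (ht : t ∈ Ioo (-1 : ℝ) 1) (hst : t ≤ s)
    (hw : 0 ≤ w) : (s - t) / 2 * Vv w - Nu w * ((H s + H t) / 2) ≤ cc s t := by
  have hHs : 0 ≤ H s := by
    rw [← exists_tanh hs, H_tanh]; exact (eta_pos _).le
  have hHt : 0 ≤ H t := by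
    rw [← exists_tanh ht, H_tanh]; exact (eta_pos _).le
  rcases hst.eq_or_lt with h | h
  · subst h
    unfold cc
    rw [sub_self, zero_div, zero_mul, zero_mul, zero_div, zero_sub, neg_nonpos]
    exact mul_nonneg (Nu_nonneg w) (by linarith)
  obtain ⟨hd0, hD⟩ := D_yy_le hs ht h
  have hcc : cc s t = (s - t) / 2 * ((A s - A t) / 2) := by unfold cc; ring
  rcases hw.eq_or_lt with hw | hw
  · subst hw
    rw [Nu_zero, Vv_zero, hcc]
    have : 0 ≤ (s - t) / 2 * ((A s - A t) / 2) := mul_nonneg (by linarith) hd0.le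
    linarith
  rw [Vv_eq hw, hcc]
  have h1 := opt_line hw hd0
  have h2 := mul_le_mul_of_nonneg_left h1 (by linarith : 0 ≤ (s - t) / 2)
  have h3 := mul_le_mul_of_nonneg_left hD (Nu_nonneg w)
  nlinarith

end CK
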