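import Vale.Agent.H9.CK.Info

/-!
# P322: series bounds for `J`, `A`
-/

open Real Finset

namespace CK

/-- coefficients of `J` -/
noncomputable def ja (k : ℕ) : ℝ := 1 / ((2 * k + 1) * (2 * k + 2))

theorem ja_pos (k : ℕ) : 0 < ja k := by unfold ja; positivity

theorem J_eq {r : ℝ} (h : |r| < 1) : J r = r * A r + log (1 - r ^ 2) / 2 := by
  obtain ⟨h1, h2⟩ := abs_lt.1 h
  unfold J H A
  rw [binEntropy_eq_negMulLog_add_negMulLog_one_sub, negMulLog, negMulLog]
  have e1 : 1 - (1 + r) / 2 = (1 - r) / 2 := by ring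
  have e2 : 1 - r ^ 2 = (1 + r) * (1 - r) := by ring
  rw [e1, e2, Real.log_div (by linarith) (by norm_num), Real.log_div (by linarith) (by norm_num),
    Real.log_mul (by linarith) (by linarith)]
  ring

theorem hasSum_A {r : ℝ} (h : |r| < 1) :
    HasSum (fun k : ℕ => r ^ (2 * k + 1) / (2 * (k : ℝ) + 1)) (A r) := by
  have h1 := (hasSum_log_sub_log_of_abs_lt_one h).div_const 2
  have h2 : (fun k : ℕ => r ^ (2 * k + 1) / (2 * (k : ℝ) + 1))
      = fun k : ℕ => 2 * (1 / (2 * (k : ℝ) + 1)) * r ^ (2 * k + 1) / 2 := by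
    funext k; ring
  rw [h2]; exact h1

theorem hasSum_J {r : ℝ} (h : |r| < 1) :
    HasSum (fun k : ℕ => ja k * r ^ (2 * k + 2)) (J r) := by
  have h1 := (hasSum_A h).mul_left r
  have hr2 : |r ^ 2| < 1 := by
    rw [abs_pow]; exact pow_lt_one₀ (abs_nonneg r) h (by norm_num)
  have h2 := (hasSum_pow_div_log_of_abs_lt_one hr2).div_const 2
  have h3 := h1.sub h2
  have e : r * A r - -log (1 - r ^ 2) / 2 = J r := by rw [J_eq h]; ring
  rw [e] at h3
  have e2 : (fun k : ℕ => ja k * r ^ (2 * k + 2)) = fun k : ℕ =>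
      r * (r ^ (2 * k + 1) / (2 * (k : ℝ) + 1)) - (r ^ 2) ^ (k + 1) / ((k : ℝ) + 1) / 2 := by
    funext k
    unfold ja
    rw [← pow_mul]
    have p1 : r ^ (2 * (k + 1)) = r ^ (2 * k + 2) := by ring_nf
    have p2 : r * (r ^ (2 * k + 1) / (2 * (k : ℝ) + 1)) = r ^ (2 * k + 2) / (2 * (k : ℝ) + 1) := by
      ring
    rw [p1, p2]
    have q1 : (2 * (k : ℝ) + 1) ≠ 0 := by positivity
    have q2 : ((k : ℝ) + 1) ≠ 0 := by positivity
    field_simp
    ring
  rw [e2]; exact h3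

theorem J_abs (r : ℝ) : J |r| = J r := by
  rcases abs_cases r with ⟨h, _⟩ | ⟨h, _⟩ <;> rw [h]
  unfold J; rw [H_neg]

/-- lower bound by partial sums -/
theorem J_lower {r : ℝ} (h : |r| ≤ 1) (N : ℕ) : ∑ k ∈ range N, ja k * r ^ (2 * k + 2) ≤ J r := by
  have key : ∀ r : ℝ, |r| < 1 → ∑ k ∈ range N, ja k * r ^ (2 * k + 2) ≤ J r := by
    intro r hr
    refine sum_le_hasSum _ (fun k _ => ?_) (hasSum_J hr)
    have : r ^ (2 * k + 2) = (r ^ (k + 1)) ^ 2 := by ring
    rw [this]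
    exact mul_nonneg (ja_pos k).le (sq_nonneg _)
  -- continuity
  have hc : Continuous fun t : ℝ => J (t * r) - ∑ k ∈ range N, ja k * (t * r) ^ (2 * k + 2) := by
    refine (continuous_J.comp (by fun_prop)).sub ?_
    fun_prop
  have h0 : ∀ᶠ t : ℝ in nhdsWithin 1 (Set.Iio 1),
      0 ≤ J (t * r) - ∑ k ∈ range N, ja k * (t * r) ^ (2 * k + 2) := by
    have h1 : ∀ᶠ t : ℝ in nhdsWithin 1 (Set.Iio 1), 0 < t :=
      nhdsWithin_le_nhds (Ioi_mem_nhds one_pos)
    filter_upwards [h1, self_mem_nhdsWithin] with t ht0 ht1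
    have ht1 : t < 1 := ht1
    have : |t * r| < 1 := by
      rw [abs_mul, abs_of_pos ht0]
      nlinarith [abs_nonneg r]
    have := key _ this
    linarith
  have h2 := ge_of_tendsto ((hc.tendsto 1).mono_left nhdsWithin_le_nhds) h0
  simp only [one_mul] at h2
  linarith

theorem sum_ja_le (N : ℕ) : ∑ k ∈ range N, ja k ≤ log 2 := by
  have := J_lower (r := 1) (by simp) N
  simpa [J_one] using this

/-- upper bound: partial sum plus `r^(2N+2)` times the tail sum -/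
theorem J_upper {r : ℝ} (h : |r| ≤ 1) (N : ℕ) :
    J r ≤ ∑ k ∈ range N, ja k * r ^ (2 * k + 2)
      + r ^ (2 * N + 2) * (log 2 - ∑ k ∈ range N, ja k) := by
  have e : ∀ k : ℕ, r ^ (2 * k + 2) = (r ^ 2) ^ (k + 1) := by
    intro k; rw [← pow_mul]; ring_nf
  have hr2 : r ^ 2 ≤ 1 := by
    rw [← sq_abs]; exact pow_le_one₀ (abs_nonneg r) h
  rcases h.lt_or_eq with h | h
  · have h1 := (hasSum_J h).tendsto_sum_nat
    refine le_of_tendsto h1 ?_
    filter_upwards [Filter.eventually_ge_atTop N] with M hM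
    have h2 : ∑ k ∈ range M, ja k * r ^ (2 * k + 2) = ∑ k ∈ range N, ja k * r ^ (2 * k + 2)
        + ∑ k ∈ Ico N M, ja k * r ^ (2 * k + 2) :=
      (sum_range_add_sum_Ico _ hM).symm
    have h3 : ∑ k ∈ range M, ja k = ∑ k ∈ range N, ja k + ∑ k ∈ Ico N M, ja k :=
      (sum_range_add_sum_Ico _ hM).symm
    have h4 : ∑ k ∈ Ico N M, ja k * r ^ (2 * k + 2) ≤ r ^ (2 * N + 2) * ∑ k ∈ Ico N M, ja k := by
      rw [mul_sum]
      refine sum_le_sum fun k hk => ?_
      rw [mul_comm]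
      refine mul_le_mul_of_nonneg_right ?_ (ja_pos k).le
      rw [e, e]
      exact pow_le_pow_of_le_one (sq_nonneg r) hr2 (by have := (mem_Ico.1 hk).1; omega)
    have h5 : ∑ k ∈ Ico N M, ja k ≤ log 2 - ∑ k ∈ range N, ja k := by
      have := sum_ja_le M
      linarith
    have h6 : r ^ (2 * N + 2) * ∑ k ∈ Ico N M, ja k
        ≤ r ^ (2 * N + 2) * (log 2 - ∑ k ∈ range N, ja k) := by
      refine mul_le_mul_of_nonneg_left h5 ?_
      rw [e]; positivity
    rw [h2]; linarith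
  · have hs : r ^ 2 = 1 := by rw [← sq_abs, h]; norm_num
    simp only [e, hs, one_pow, mul_one, one_mul]
    rw [← J_abs, h, J_one]
    linarith

/-- `J r ≥ r^2/2 + r^4/12` -/
theorem J_lower2 {r : ℝ} (h : |r| ≤ 1) : r ^ 2 / 2 + r ^ 4 / 12 ≤ J r := by
  have := J_lower h 2
  simp only [sum_range_succ, sum_range_zero, ja] at this
  norm_num at this
  linarith

theorem J_lower1 {r : ℝ} (h : |r| ≤ 1) : r ^ 2 / 2 ≤ J r := by
  have := J_lower2 h
  have : 0 ≤ r ^ 4 := by positivity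
  linarith

/-- `J r ≤ r^2/2 + (log 2 - 1/2) r^4` -/
theorem J_upper1 {r : ℝ} (h : |r| ≤ 1) : J r ≤ r ^ 2 / 2 + (log 2 - 1 / 2) * r ^ 4 := by
  have := J_upper h 1
  simp only [sum_range_succ, sum_range_zero, ja] at this
  norm_num at this
  linarith

/-- `J r ≤ r^2/2 + r^4/12 + (log 2 - 7/12) r^6` -/
theorem J_upper2 {r : ℝ} (h : |r| ≤ 1) :
    J r ≤ r ^ 2 / 2 + r ^ 4 / 12 + (log 2 - 7 / 12) * r ^ 6 := by
  have := J_upper h 2
  simp only [sum_range_succ, sum_range_zero, ja] at this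
  norm_num at this
  linarith

end CK
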