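import Vale.Agent.H12.CK.JS
import Vale.Agent.H29.CK.Defs

/-!
# P322: the full Courtade-Kumar inequality from the main inequality `MI` for `P2`
-/

open Real Finset

namespace CK.Ode

theorem log2_bounds : (0.6931 : ℝ) < log 2 ∧ log 2 < 0.6932 := by
  constructor
  · have := Real.log_two_gt_d9; linarith
  · have := Real.log_two_lt_d9; linarith

theorem P2_mul (m : ℝ) :
    log 2 * P2 m = log 2 - m ^ 2 / 2 - (log 2 - 1 / 2) * m ^ 4 := by
  have h : log 2 ≠ 0 := (Real.log_pos (by norm_num)).ne'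
  unfold P2 c0
  field_simp
  ring

theorem P2_pos' {m : ℝ} (h : |m| < 1) : 0 < P2 m := P2_pos (abs_lt.1 h)

theorem P2_le_one (m : ℝ) : P2 m ≤ 1 := by
  obtain ⟨l1, l2⟩ := log2_bounds
  have h2 := P2_mul m
  have h4 : 0 ≤ m ^ 4 := by positivity
  nlinarith [sq_nonneg m]

/-- `log 2 * P2 ≤ H` -/
theorem P2_le_H {m : ℝ} (h : |m| ≤ 1) : log 2 * P2 m ≤ H m := by
  have h1 := J_upper1 h
  rw [P2_mul]
  unfold J at h1
  linarith

/-- the one-variable inequality (B') -/
theorem exists_r1 {m : ℝ} (h : |m| < 1) :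
    ∃ r ∈ Set.Icc (0 : ℝ) 1, H m ≤ r ^ 2 / 2 + P2 m * H r := by
  obtain ⟨l1, l2⟩ := log2_bounds
  have hJm := J_lower2 h.le
  have hm0 : 0 ≤ m ^ 2 := sq_nonneg m
  have hH : H m = log 2 - J m := by unfold J; ring
  rcases le_or_gt (m ^ 2) (1 / 2) with hq | hq
  · refine ⟨√(2 * m ^ 2), ⟨Real.sqrt_nonneg _, ?_⟩, ?_⟩
    · rw [Real.sqrt_le_one]; linarith
    · set r := √(2 * m ^ 2) with hr
      have hr2 : r ^ 2 = 2 * m ^ 2 := Real.sq_sqrt (by positivity)
      have hr0 : 0 ≤ r := Real.sqrt_nonneg _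
      have hr1 : |r| ≤ 1 := by
        rw [abs_of_nonneg hr0, hr, Real.sqrt_le_one]; linarith
      have hJr := J_upper2 hr1
      have e4 : r ^ 4 = 4 * (m ^ 2) ^ 2 := by
        have : r ^ 4 = (r ^ 2) ^ 2 := by ring
        rw [this, hr2]; ring
      have e6 : r ^ 6 = 8 * (m ^ 2) ^ 3 := by
        have : r ^ 6 = (r ^ 2) ^ 3 := by ring
        rw [this, hr2]; ring
      rw [e4, e6, hr2] at hJr
      have hHr : H r = log 2 - J r := by unfold J; ring
      rw [hH, hHr, hr2]
      have hP := P2_mul m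
      have hP0 := P2_pos' h
      have em : m ^ 4 = (m ^ 2) ^ 2 := by ring
      rw [em] at hP hJm
      -- upper bound for P2
      have hPle : P2 m ≤ 1 - 0.72 * m ^ 2 - 0.27 * (m ^ 2) ^ 2 := by
        have hL : 0 < log 2 := by linarith
        have : log 2 * P2 m ≤ log 2 * (1 - 0.72 * m ^ 2 - 0.27 * (m ^ 2) ^ 2) := by
          rw [hP]
          nlinarith [mul_nonneg hm0 hm0, mul_nonneg hm0 (mul_nonneg hm0 hm0)]
        exact le_of_mul_le_mul_left this hL
      set q := m ^ 2 with hqdef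
      set L := log 2 with hL
      set P := P2 m with hPdef
      have hJr2 : J r ≤ q + q ^ 2 / 3 + 0.88 * q ^ 3 := by
        nlinarith [pow_nonneg hm0 3]
      have h5 : P * J r ≤ (1 - 0.72 * q - 0.27 * q ^ 2) * (q + q ^ 2 / 3 + 0.88 * q ^ 3) := by
        have a1 : P * J r ≤ P * (q + q ^ 2 / 3 + 0.88 * q ^ 3) :=
          mul_le_mul_of_nonneg_left hJr2 hP0.le
        have a2 : P * (q + q ^ 2 / 3 + 0.88 * q ^ 3) ≤
            (1 - 0.72 * q - 0.27 * q ^ 2) * (q + q ^ 2 / 3 + 0.88 * q ^ 3) :=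
          mul_le_mul_of_nonneg_right hPle (by positivity)
        exact a1.trans a2
      have h6 : (1 - 0.72 * q - 0.27 * q ^ 2) * (q + q ^ 2 / 3 + 0.88 * q ^ 3) ≤
          q - 0.11 * q ^ 2 := by
        have : q - 0.11 * q ^ 2 - (1 - 0.72 * q - 0.27 * q ^ 2) * (q + q ^ 2 / 3 + 0.88 * q ^ 3)
            = q ^ 2 * ((-0.11 - 1 / 3 + 0.72) + q * (-0.88 + 0.24 + 0.27)
              + q ^ 2 * (0.72 * 0.88 + 0.09) + q ^ 3 * (0.27 * 0.88)) := by ring
        have h7 : 0 ≤ q ^ 2 * ((-0.11 - 1 / 3 + 0.72) + q * (-0.88 + 0.24 + 0.27)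
              + q ^ 2 * (0.72 * 0.88 + 0.09) + q ^ 3 * (0.27 * 0.88)) := by
          refine mul_nonneg (by positivity) ?_
          have : 0 ≤ q ^ 2 * (0.72 * 0.88 + 0.09) := by positivity
          have : 0 ≤ q ^ 3 * (0.27 * 0.88) := by positivity
          nlinarith
        linarith
      nlinarith [mul_nonneg hm0 hm0]
  · refine ⟨1, ⟨zero_le_one, le_rfl⟩, ?_⟩
    rw [H_one, hH]
    have : (1 / 4 : ℝ) ≤ m ^ 4 := by
      have : m ^ 4 = (m ^ 2) ^ 2 := by ring
      rw [this]; nlinarith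
    nlinarith

/-- the two comparison phases -/
theorem compare2 (f2 : ℝ → ℝ) (hnn : ∀ y, 0 < y → 0 ≤ f2 y)
    (hanti : ∀ y z, 0 < y → y ≤ z → f2 z ≤ f2 y)
    (hval : ∀ θ ∈ Set.Ioo (0 : ℝ) 1, f2 (H θ) = θ * A θ - 2 * J θ)
    {m : ℝ} (hm : |m| < 1) (I I' : ℝ → ℝ) (hc : ContinuousOn I (Set.Icc 0 1))
    (hd : ∀ r ∈ Set.Ioo (0 : ℝ) 1, HasDerivAt I (I' r) r)
    (hxI : ∀ r ∈ Set.Ioo (0 : ℝ) 1, I r < H m)
    (h1 : I 1 ≤ H m)
    (hI : ∀ r ∈ Set.Ioo (0 : ℝ) 1,
      2 * I r + P2 m * f2 ((H m - I r) / P2 m) ≤ I' r * r) :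
    ∀ r ∈ Set.Icc (0 : ℝ) 1, 0 < r → I r ≤ J r := by
  have hP := P2_pos' hm
  have hP1 := P2_le_one m
  set P := P2 m with hPdef
  set κ := H m - log 2 * P with hκ
  have hκ0 : 0 ≤ κ := by have := P2_le_H hm.le; rw [hκ]; linarith
  -- phase 1
  have ph1 : ∀ r ∈ Set.Icc (0 : ℝ) 1, 0 < r → I r ≤ κ + P * J r := by
    intro a ha ha0
    by_contra hcon
    push Not at hcon
    have ha1 : a ≤ 1 := ha.2
    rcases ha1.eq_or_lt with h | ha1
    · subst h
      rw [J_one] at hcon
      rw [hκ] at hcon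
      linarith
    -- choose c
    set c := I a - (κ + P * J a) with hcdef
    have hc0 : 0 < c := by rw [hcdef]; linarith
    set δ := c / 2 with hδ
    have hδ0 : 0 < δ := by rw [hδ]; linarith
    have hJd : ∀ r ∈ Set.Ioo (0 : ℝ) 1, HasDerivAt (fun r => κ + P * J r + c - δ * (r - a))
        (P * A r - δ) r := by
      intro r hr
      have e1 := (((hasDerivAt_J (t := r) ⟨by linarith [hr.1], hr.2⟩).const_mul P).const_add κ).add_const c
      have e2 := ((hasDerivAt_id r).sub_const a).const_mul δ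
      have e3 := e1.sub e2
      refine e3.congr_deriv ?_
      ring
    have hmain := image_le_of_deriv_right_lt_deriv_boundary' (a := a) (b := 1)
      (f := fun r => κ + P * J r + c - δ * (r - a)) (f' := fun r => P * A r - δ)
      (B := I) (B' := I')
      (by
        refine Continuous.continuousOn ?_
        exact (((continuous_J.const_mul P).const_add κ).add_const c).sub
          ((continuous_id.sub continuous_const).const_mul δ) )
      (fun r hr => (hJd r ⟨by linarith [hr.1], hr.2⟩).hasDerivWithinAt)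
      (by simp only [sub_self, mul_zero, sub_zero]; rw [hcdef]; linarith)
      (hc.mono (Set.Icc_subset_Icc_left ha0.le))
      (fun r hr => (hd r ⟨by linarith [hr.1], hr.2⟩).hasDerivWithinAt)
      (by
        intro r hr heq
        have hr0 : 0 < r := by linarith [hr.1]
        have hr1 : r < 1 := hr.2
        have hr' : r ∈ Set.Ioo (0 : ℝ) 1 := ⟨hr0, hr1⟩
        have hgt : κ + P * J r < I r := by
          rw [← heq]
          have : δ * (r - a) ≤ δ * 1 := by
            refine mul_le_mul_of_nonneg_left ?_ hδ0.le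
            linarith
          rw [hδ] at this ⊢
          linarith
        have h2 := hI r hr'
        have hxr := hxI r hr'
        have hy0 : 0 < (H m - I r) / P := div_pos (by linarith) hP
        have hyle : (H m - I r) / P ≤ H r := by
          rw [div_le_iff₀ hP]
          have : H r = log 2 - J r := by unfold J; ring
          rw [this]
          have : κ + P * J r ≤ I r := hgt.le
          rw [hκ] at this
          linarith
        have h3 := hanti _ _ hy0 hyle
        rw [hval r hr'] at h3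
        have h4 : P * (r * A r - 2 * J r) ≤ P * f2 ((H m - I r) / P) :=
          mul_le_mul_of_nonneg_left h3 hP.le
        have h5 : P * A r * r ≤ I' r * r := by nlinarith
        have h6 := le_of_mul_le_mul_right h5 hr0
        change P * A r - δ < I' r
        linarith)
    have hend : κ + P * J 1 + c - δ * (1 - a) ≤ I 1 := hmain (x := 1) ⟨ha1.le, le_rfl⟩
    rw [J_one] at hend
    have : δ * (1 - a) ≤ δ * 1 := mul_le_mul_of_nonneg_left (by linarith) hδ0.le
    rw [hκ] at hend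
    rw [hδ] at *
    linarith
  obtain ⟨r1, ⟨hr10, hr11⟩, hr1⟩ := exists_r1 hm
  have hHr1 : H r1 = log 2 - J r1 := by unfold J; ring
  have hkey : κ + P * J r1 ≤ r1 ^ 2 / 2 := by
    rw [hκ]
    rw [hHr1] at hr1
    linarith
  have hJmono : ∀ a b, 0 ≤ a → a ≤ b → b ≤ 1 → J a ≤ J b := by
    intro a b ha hab hb
    have hmon : MonotoneOn J (Set.Icc 0 1) := by
      refine monotoneOn_of_deriv_nonneg (convex_Icc 0 1) continuous_J.continuousOn ?_ ?_
      · intro x hx
        rw [interior_Icc] at hx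
        exact (hasDerivAt_J ⟨by linarith [hx.1], hx.2⟩).differentiableAt.differentiableWithinAt
      · intro x hx
        rw [interior_Icc] at hx
        rw [(hasDerivAt_J ⟨by linarith [hx.1], hx.2⟩).deriv]
        exact (A_pos hx.1 hx.2).le
    exact hmon ⟨ha, hab.trans hb⟩ ⟨ha.trans hab, hb⟩ hab
  intro r hr hr0
  rcases le_or_gt r1 r with hle | hlt
  · -- large r
    have h2 := ph1 r hr hr0
    have h3 := hJmono r1 r hr10 hle hr.2
    have h4 := J_lower1 (r := r1) (by rw [abs_of_nonneg hr10]; exact hr11)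
    have h5 : (1 - P) * J r1 ≤ (1 - P) * J r := mul_le_mul_of_nonneg_left h3 (by linarith)
    nlinarith
  · -- small r: I / r^2 is monotone
    have hr1pos : 0 < r1 := hr0.trans hlt
    have hmon : MonotoneOn (fun r => I r / r ^ 2) (Set.Icc r r1) := by
      refine monotoneOn_of_deriv_nonneg (convex_Icc r r1) ?_ ?_ ?_
      · refine ContinuousOn.div (hc.mono (Set.Icc_subset_Icc hr0.le hr11)) (by fun_prop) ?_
        intro x hx
        have : 0 < x := by linarith [hx.1]
        positivity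
      · intro x hx
        rw [interior_Icc] at hx
        have hx0 : 0 < x := by linarith [hx.1]
        have hx1 : x < 1 := by linarith [hx.2]
        have e1 := (hd x ⟨hx0, hx1⟩).div (hasDerivAt_pow 2 x) (by positivity)
        exact e1.differentiableAt.differentiableWithinAt
      · intro x hx
        rw [interior_Icc] at hx
        have hx0 : 0 < x := by linarith [hx.1]
        have hx1 : x < 1 := by linarith [hx.2]
        have e1 := (hd x ⟨hx0, hx1⟩).div (hasDerivAt_pow 2 x) (by positivity)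
        have e2 : deriv (fun r => I r / r ^ 2) x = _ := e1.deriv
        rw [e2]
        refine div_nonneg ?_ (by positivity)
        have h2 := hI x ⟨hx0, hx1⟩
        have h3 := hnn ((H m - I x) / P) (div_pos (by linarith [hxI x ⟨hx0, hx1⟩]) hP)
        have h4 : 0 ≤ P * f2 ((H m - I x) / P) := mul_nonneg hP.le h3
        have h5 : 2 * I x ≤ I' x * x := by linarith
        have h6 : (2 * I x) * x ≤ (I' x * x) * x := mul_le_mul_of_nonneg_right h5 hx0.le
        simp only [Nat.cast_ofNat, Nat.add_one_sub_one, pow_one]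
        nlinarith
    have h2 := hmon (Set.left_mem_Icc.2 hlt.le) (Set.right_mem_Icc.2 hlt.le) hlt.le
    simp only at h2
    have h3 := ph1 r1 ⟨hr10, hr11⟩ hr1pos
    have h4 : I r1 / r1 ^ 2 ≤ 1 / 2 := by
      rw [div_le_iff₀ (by positivity)]
      linarith
    have h5 : I r / r ^ 2 ≤ 1 / 2 := h2.trans h4
    rw [div_le_iff₀ (by positivity)] at h5
    have h6 := J_lower1 (r := r) (by rw [abs_of_nonneg hr0.le]; exact hr.2)
    linarith

/-- The Bellman function -/
noncomputable def BB (f2 : ℝ → ℝ) (m x : ℝ) : ℝ := 2 * (H m - x) + P2 m * f2 (x / P2 m)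

/-- The comparison for Boolean functions, from the main inequality for `BB f2`. -/
theorem compare_full (f2 : ℝ → ℝ) (hnn : ∀ y, 0 < y → 0 ≤ f2 y)
    (hanti : ∀ y z, 0 < y → y ≤ z → f2 z ≤ f2 y)
    (hval : ∀ θ ∈ Set.Ioo (0 : ℝ) 1, f2 (H θ) = θ * A θ - 2 * J θ)
    (hzero : ∀ y, log 2 ≤ y → f2 y = 0) (hMI : MI (BB f2))
    {n : ℕ} (F : Cube n → ℝ) (hF : ∀ x, F x = 1 ∨ F x = -1) {ρ : ℝ} (h0 : 0 ≤ ρ) (h1 : ρ ≤ 1) :
    H (av F) - av (fun y => H (T ρ F y)) ≤ J ρ := by
  -- trivial bound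
  have htriv : ∀ ρ, 0 ≤ ρ → ρ ≤ 1 → 0 ≤ av (fun y => H (T ρ F y)) := by
    intro ρ h0 h1
    unfold av
    exact div_nonneg (Finset.sum_nonneg fun y _ => H_nonneg (T_mem_Icc h0 h1 F hF y))
      (by positivity)
  rcases eq_or_lt_of_le h0 with h0 | h0
  · subst h0
    simp_rw [T_zero]
    rw [av_const, sub_self]
    exact J_nonneg 0
  -- constant functions
  by_cases hp : ∃ x, F x = 1
  swap
  · have hc : ∀ x, F x = -1 := fun x => (hF x).resolve_left fun h => hp ⟨x, h⟩
    have : av F = -1 := by rw [av_congr hc, av_const]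
    rw [this, H_neg_one]
    have := htriv ρ h0.le h1
    have := J_nonneg ρ
    linarith
  by_cases hm : ∃ x, F x = -1
  swap
  · have hc : ∀ x, F x = 1 := fun x => (hF x).resolve_right fun h => hm ⟨x, h⟩
    have : av F = 1 := by rw [av_congr hc, av_const]
    rw [this, H_one]
    have := htriv ρ h0.le h1
    have := J_nonneg ρ
    linarith
  have hTm : ∀ r, 0 ≤ r → r < 1 → ∀ y, T r F y ∈ Set.Ioo (-1 : ℝ) 1 :=
    fun r hr0 hr1 y => T_mem hr0 hr1 F hF hp hm y
  have hav : |av F| < 1 := by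
    have := hTm 0 le_rfl one_pos (fun _ => true)
    rw [T_zero] at this
    exact abs_lt.2 ⟨this.1, this.2⟩
  have hBH : ∀ m ∈ Set.Ioo (-1 : ℝ) 1, BB f2 m (H m) ≤ 0 := by
    intro m hm
    have hm' : |m| < 1 := abs_lt.2 ⟨hm.1, hm.2⟩
    have hP := P2_pos' hm'
    unfold BB
    rw [sub_self, mul_zero, zero_add, hzero, mul_zero]
    rw [le_div_iff₀ hP]
    exact P2_le_H hm'.le
  set I : ℝ → ℝ := fun ρ => H (av F) - av (fun y => H (T ρ F y)) with hI
  have hTc : ∀ y, Continuous fun r => T r F y := by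
    intro y
    unfold T K
    fun_prop
  have hId : ∀ r ∈ Set.Ioo (0 : ℝ) 1, HasDerivAt I (Phi (T r F) / r) r := by
    intro r hr
    have := (hasDerivAt_avH hr.1.ne' F (hTm r hr.1.le hr.2)).const_sub (H (av F))
    refine this.congr_deriv ?_
    ring
  refine compare2 f2 hnn hanti hval hav I (fun r => Phi (T r F) / r) ?_ hId ?_ ?_ ?_ ρ ⟨h0.le, h1⟩ h0
  · refine Continuous.continuousOn ?_
    refine continuous_const.sub ?_
    unfold av
    refine Continuous.div_const ?_ _
    exact continuous_finsetSum _ fun y _ => continuous_H.comp (hTc y)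
  · intro r hr
    have hpos : 0 < av (fun y => H (T r F y)) := by
      unfold av
      refine div_pos (Finset.sum_pos (fun y _ => H_pos (hTm r hr.1.le hr.2 y))
        Finset.univ_nonempty) (by positivity)
    change H (av F) - av (fun y => H (T r F y)) < H (av F)
    linarith
  · have := htriv 1 zero_le_one le_rfl
    change H (av F) - av (fun y => H (T 1 F y)) ≤ H (av F)
    linarith
  · intro r hr
    have ht := tens (BB f2) hBH hMI n (T r F) (hTm r hr.1.le hr.2)
    rw [av_T] at ht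
    have e1 : Phi (T r F) / r * r = Phi (T r F) := div_mul_cancel₀ _ hr.1.ne'
    change 2 * I r + P2 (av F) * f2 ((H (av F) - I r) / P2 (av F)) ≤ Phi (T r F) / r * r
    rw [e1]
    have e2 : av (fun y => H (T r F y)) = H (av F) - I r := by
      simp only [hI]; ring
    unfold BB at ht
    rw [e2] at ht
    have e3 : 2 * (H (av F) - (H (av F) - I r)) = 2 * I r := by ring
    rw [e3] at ht
    exact ht

/-- **The Courtade-Kumar inequality for all Boolean functions**, from the main inequality for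
`BB f2`. -/
theorem ck_full (f2 : ℝ → ℝ) (hnn : ∀ y, 0 < y → 0 ≤ f2 y)
    (hanti : ∀ y z, 0 < y → y ≤ z → f2 z ≤ f2 y)
    (hval : ∀ θ ∈ Set.Ioo (0 : ℝ) 1, f2 (H θ) = θ * A θ - 2 * J θ)
    (hzero : ∀ y, log 2 ≤ y → f2 y = 0) (hMI : MI (BB f2))
    {n : ℕ} (f : (Fin n → ℤˣ) → ℤˣ) (ε : ℝ) (h0 : 0 ≤ ε) (h1 : ε ≤ 1 / 2) :
    mutualInfo (jointLaw f ε) ≤ 1 - h₂ ε := by
  have hlog2 : 0 < log 2 := Real.log_pos (by norm_num)
  have h := compare_full f2 hnn hanti hval hzero hMI (fun x => rv (f (eC n x)))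
    (fun x => rv_cases _) (ρ := 1 - 2 * ε) (by linarith) (by linarith)
  rw [← mi_eq f ε h0 h1] at h
  have hJ : J (1 - 2 * ε) = (1 - h₂ ε) * log 2 := by
    unfold J H h₂ logb
    have e : (1 + (1 - 2 * ε)) / 2 = 1 - ε := by ring
    rw [e, binEntropy_one_sub, binEntropy_eq_negMulLog_add_negMulLog_one_sub, negMulLog, negMulLog]
    field_simp
    ring
  rw [hJ] at h
  exact le_of_mul_le_mul_right h hlog2

/-- Full Courtade-Kumar from the main inequality for `Bell P2`. -/
theorem ck_of_MI (hMI : MI (Bell P2)) {n : ℕ} (f : (Fin n → ℤˣ) → ℤˣ) (ε : ℝ) (h0 : 0 ≤ ε)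
    (h1 : ε ≤ 1 / 2) : mutualInfo (jointLaw f ε) ≤ 1 - h₂ ε :=
  ck_full f2 (fun _ hy => f2_nonneg hy) (fun _ _ hy hyz => f2_antitone hy hyz)
    (fun _ hθ => f2_H hθ.1.le hθ.2) (fun _ hy => f2_of_ge hy) hMI f ε h0 h1

end CK.Ode
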